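import Vale.Agent.P256.H875.Deriv

/-! Iterated derivatives in interior directions. -/

namespace Vale.Agent.P256

open Polynomial Filter Topology

variable {n : ℕ} {p : MvPolynomial (Fin n) ℝ} {e a : Fin n → ℝ}

theorem polarDeriv_eq (a : Fin n → ℝ) (q : MvPolynomial (Fin n) ℝ) :
    polarDeriv a q = dirD q a := rfl

theorem polarDeriv_zero (a : Fin n → ℝ) : polarDeriv a (0 : MvPolynomial (Fin n) ℝ) = 0 := by
  rw [polarDeriv_eq, dirD_zero]

theorem polarDeriv_const (hd : p.IsHomogeneous 0) (a : Fin n → ℝ) : polarDeriv a p = 0 := by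
  have h1 := (MvPolynomial.totalDegree_zero_iff_isHomogeneous (Fin n)).2 hd
  rw [MvPolynomial.totalDegree_eq_zero_iff_eq_C] at h1
  rw [h1, polarDeriv_eq, dirD_C]

theorem shad_zero (hp : IsHyperbolic p e) (hd : p.IsHomogeneous 0) : GShad (hypCone p e) := by
  have h1 := (MvPolynomial.totalDegree_zero_iff_isHomogeneous (Fin n)).2 hd
  rw [MvPolynomial.totalDegree_eq_zero_iff_eq_C] at h1
  have h0 : MvPolynomial.eval 0 p ≠ 0 := by
    have := hp.2.1
    rw [h1] at this ⊢
    simpa using this.ne'
  rw [K_univ_of_eval_zero_ne hp h0]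
  exact GShad.univ

theorem shad_one (hp : IsHyperbolic p e) (hd : p.IsHomogeneous 1) : GShad (hypCone p e) := by
  set c : Fin n → ℝ := fun i => MvPolynomial.eval 0 (MvPolynomial.pderiv i p) with hc
  have key : ∀ x, MvPolynomial.eval x p = ∑ i, c i * x i := by
    intro x
    have h1 := dd_euler hd x
    rw [Nat.cast_one, one_mul] at h1
    rw [← h1]
    unfold dd
    refine Finset.sum_congr rfl fun i _ => ?_
    have h2 : (MvPolynomial.pderiv i p).IsHomogeneous 0 := hd.pderiv (i := i)
    have h3 := (MvPolynomial.totalDegree_zero_iff_isHomogeneous (Fin n)).2 h2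
    rw [MvPolynomial.totalDegree_eq_zero_iff_eq_C] at h3
    rw [hc, mul_comm]
    simp only
    rw [h3]
    simp
  let l : (Fin n → ℝ) →ₗ[ℝ] ℝ :=
    { toFun := fun x => ∑ i, c i * x i
      map_add' := fun x y => by simp only [Pi.add_apply, mul_add, Finset.sum_add_distrib]
      map_smul' := fun t x => by
        simp only [Pi.smul_apply, smul_eq_mul, RingHom.id_apply, Finset.mul_sum]
        exact Finset.sum_congr rfl fun i _ => by ring }
  have hl : ∀ x, MvPolynomial.eval x p = l x := key
  have hle : 0 < l e := by rw [← hl]; exact hp.2.1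
  have hK : hypCone p e = {x | 0 ≤ l x} := by
    ext x
    rw [mem_hypCone_iff hd, Set.mem_setOf_eq]
    constructor
    · intro h
      by_contra hlt
      push Not at hlt
      apply h (-(l x) / l e) (div_pos (neg_pos.2 hlt) hle)
      rw [hl, map_add, map_smul, smul_eq_mul, div_mul_cancel₀ _ hle.ne']
      ring
    · intro h t ht
      rw [hl, map_add, map_smul, smul_eq_mul]
      have := mul_pos ht hle
      exact (by linarith : (0 : ℝ) < l x + t * l e).ne'
  rw [hK]
  exact GShad.halfspace l

theorem OrdinaryCone.shad (h : OrdinaryCone p e) : GShad (hypCone p e) :=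
  NiceCone.shad ⟨h.hyp, Or.inr ⟨h.pointed, fun z hz hz0 hzp => Or.inl (h.ordinary z hz hz0 hzp)⟩⟩

/-- ordinary, or of degree at most one -/
def Fine (p : MvPolynomial (Fin n) ℝ) (e : Fin n → ℝ) : Prop :=
  OrdinaryCone p e ∨ (IsHyperbolic p e ∧ ∃ d ≤ 1, p.IsHomogeneous d)

theorem Fine.hyp (h : Fine p e) : IsHyperbolic p e := by
  rcases h with h | h
  · exact h.hyp
  · exact h.1

theorem Fine.shad (h : Fine p e) : GShad (hypCone p e) := by
  rcases h with h | ⟨h, d, hd1, hd⟩
  · exact h.shad
  · obtain rfl | rfl : d = 0 ∨ d = 1 := by omega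
    · exact shad_zero h hd
    · exact shad_one h hd

theorem hyp_polar (hp : IsHyperbolic p e) (ha : InOpen p e a) (hne : polarDeriv a p ≠ 0) :
    IsHyperbolic (polarDeriv a p) e ∧ ∀ y, InOpen p e y → InOpen (polarDeriv a p) e y := by
  obtain ⟨d, hd⟩ := hp.1
  rcases d with _ | d
  · exact absurd (polarDeriv_const hd a) hne
  · exact ⟨(hyp_deriv hp hd ha).1, fun y hy => inOpen_deriv hp hd ha hy⟩

theorem Fine.deriv (h : Fine p e) (ha : InOpen p e a) (hne : polarDeriv a p ≠ 0) :
    Fine (polarDeriv a p) e := by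
  rcases h with h | ⟨h, d, hd1, hd⟩
  · have hp := hyp_polar h.hyp ha hne
    obtain ⟨d, hd⟩ := h.hyp.1
    rcases d with _ | _ | _ | d
    · exact absurd (polarDeriv_const hd a) hne
    · exact Or.inr ⟨hp.1, 0, by omega, homog_dirD hd a⟩
    · exact Or.inr ⟨hp.1, 1, by omega, homog_dirD hd a⟩
    · exact Or.inl (h.deriv hd ha)
  · have hp := hyp_polar h ha hne
    obtain rfl | rfl : d = 0 ∨ d = 1 := by omega
    · exact absurd (polarDeriv_const hd a) hne
    · exact Or.inr ⟨hp.1, 0, by omega, homog_dirD hd a⟩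

theorem hyp_list (hp : IsHyperbolic p e) : ∀ as : List (Fin n → ℝ), (∀ a ∈ as, InOpen p e a) →
    as.foldr polarDeriv p ≠ 0 → IsHyperbolic (as.foldr polarDeriv p) e ∧
      ∀ y, InOpen p e y → InOpen (as.foldr polarDeriv p) e y := by
  intro as
  induction as with
  | nil => intro _ _; exact ⟨hp, fun _ h => h⟩
  | cons a as ih =>
    intro h hne
    rw [List.foldr_cons] at hne ⊢
    have hne' : as.foldr polarDeriv p ≠ 0 := by
      intro h0
      rw [h0, polarDeriv_zero] at hne
      exact hne rfl
    obtain ⟨h1, h2⟩ := ih (fun b hb => h b (List.mem_cons_of_mem a hb)) hne'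
    obtain ⟨h3, h4⟩ := hyp_polar h1 (h2 a (h a List.mem_cons_self)) hne
    exact ⟨h3, fun y hy => h4 y (h2 y hy)⟩

theorem Fine.list (hp : Fine p e) : ∀ as : List (Fin n → ℝ), (∀ a ∈ as, InOpen p e a) →
    as.foldr polarDeriv p ≠ 0 → Fine (as.foldr polarDeriv p) e := by
  intro as
  induction as with
  | nil => intro _ _; exact hp
  | cons a as ih =>
    intro h hne
    rw [List.foldr_cons] at hne ⊢
    have hne' : as.foldr polarDeriv p ≠ 0 := by
      intro h0
      rw [h0, polarDeriv_zero] at hne
      exact hne rfl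
    have hh : ∀ b ∈ as, InOpen p e b := fun b hb => h b (List.mem_cons_of_mem a hb)
    exact (ih hh hne').deriv ((hyp_list hp.hyp as hh hne').2 a (h a List.mem_cons_self)) hne

/-! ### linear preimages -/

section pre

variable {k : ℕ} {q : MvPolynomial (Fin k) ℝ} (A : (Fin n → ℝ) →ₗ[ℝ] (Fin k → ℝ))

theorem eval_polar_pre (hA : ∀ x, MvPolynomial.eval x p = MvPolynomial.eval (A x) q)
    (a x : Fin n → ℝ) : MvPolynomial.eval x (polarDeriv a p) =
      MvPolynomial.eval (A x) (polarDeriv (A a) q) := by
  have h1 : line p x a = line q (A x) (A a) := by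
    apply Polynomial.funext
    intro t
    rw [eval_line, eval_line, hA, map_add, map_smul]
  have h2 := congrArg (fun f => (derivative f).eval 0) h1
  simp only [eval_derivative_line, zero_smul, add_zero] at h2
  rw [polarDeriv_eq, polarDeriv_eq, eval_dirD, eval_dirD, h2]

theorem eval_list_pre (hA : ∀ x, MvPolynomial.eval x p = MvPolynomial.eval (A x) q)
    (as : List (Fin n → ℝ)) : ∀ x, MvPolynomial.eval x (as.foldr polarDeriv p) =
      MvPolynomial.eval (A x) ((as.map A).foldr polarDeriv q) := by
  induction as with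
  | nil => exact hA
  | cons a as ih =>
    intro x
    rw [List.foldr_cons, List.map_cons, List.foldr_cons]
    exact eval_polar_pre A ih a x

theorem hypCone_pre (hA : ∀ x, MvPolynomial.eval x p = MvPolynomial.eval (A x) q) :
    hypCone p e = A ⁻¹' hypCone q (A e) := by
  ext x
  simp only [hypCone, Set.mem_setOf_eq, Set.mem_preimage, hA, map_sub, map_smul]

/-- mixed derivatives, in interior directions, of `q ∘ A` -/
theorem polar_main (hp : IsHyperbolic p e)
    (hA : ∀ x, MvPolynomial.eval x p = MvPolynomial.eval (A x) q) (hq : OrdinaryCone q (A e))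
    (as : List (Fin n → ℝ)) (has : ∀ a ∈ as, a ∈ interior (hypCone p e))
    (hne : as.foldr polarDeriv p ≠ 0) :
    IsHyperbolic (as.foldr polarDeriv p) e ∧
      IsSpectrahedralShadow (hypCone (as.foldr polarDeriv p) e) := by
  have h1 : ∀ a ∈ as, InOpen p e a := fun a ha => (interior_iff hp).1 (has a ha)
  refine ⟨(hyp_list hp as h1 hne).1, ?_⟩
  have hev := eval_list_pre A hA as
  rw [hypCone_pre A hev]
  have h2 : ∀ b ∈ as.map A, InOpen q (A e) b := by
    intro b hb
    obtain ⟨a, ha, rfl⟩ := List.mem_map.1 hb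
    intro t ht
    have := h1 a ha t ht
    rwa [hA, map_add, map_smul] at this
  have hne' : (as.map A).foldr polarDeriv q ≠ 0 := by
    intro h0
    apply hne
    apply MvPolynomial.funext
    intro x
    rw [hev, h0, map_zero, map_zero]
  exact ((Fine.list (Or.inl hq) _ h2 hne').shad.preimage A).shadow

end pre

end Vale.Agent.P256
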