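import Vale.Agent.P256.DefsF

/-! Definitions for the statement on derivatives and quadratic extensions. -/

namespace Vale.Agent.P256

variable {n : ℕ}

/-- The directional derivative `D_a q = ∑ i, a i * ∂q/∂x_i`. -/
noncomputable def polarDeriv (a : Fin n → ℝ) (q : MvPolynomial (Fin n) ℝ) :
    MvPolynomial (Fin n) ℝ :=
  ∑ i, MvPolynomial.C (a i) * MvPolynomial.pderiv i q

/-- `q` is hyperbolic, its cone contains no line, and all nonzero boundary points of the cone
are ordinary (of any multiplicity). -/
structure OrdinaryCone (q : MvPolynomial (Fin n) ℝ) (e : Fin n → ℝ) : Prop where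
  hyp : IsHyperbolic q e
  pointed : ∀ x ∈ hypCone q e, -x ∈ hypCone q e → x = 0
  ordinary : ∀ z ∈ hypCone q e, z ≠ 0 → MvPolynomial.eval z q = 0 → OrdinaryAt q e z

end Vale.Agent.P256
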