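import Vale.Agent.P256.Bdl.B1
import Vale.Agent.P256.H875.Defs

/-! Derivatives of hyperbolic polynomials with ordinary boundary points. -/

namespace Vale.Agent.P256

open Polynomial Filter Topology

variable {n : ℕ} {p : MvPolynomial (Fin n) ℝ} {e a : Fin n → ℝ}

theorem inOpen_iff (hp : IsHyperbolic p e) (ha : InOpen p e a) {y : Fin n → ℝ} :
    InOpen p a y ↔ InOpen p e y :=
  ⟨fun h => open_symm (garding1 hp ha) (open_symm hp ha (e_inOpen hp)) h,
    fun h => open_symm hp ha h⟩

theorem K_limit (hp : IsHyperbolic p e) {x y : Fin n → ℝ}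
    (h : ∀ t : ℝ, 0 < t → x + t • y ∈ hypCone p e) : x ∈ hypCone p e := by
  have hc : Continuous (fun t : ℝ => x + t • y) := by fun_prop
  have h1 := (hc.tendsto 0).mono_left (nhdsWithin_le_nhds (s := Set.Ioi 0))
  rw [zero_smul, add_zero] at h1
  exact (isClosed_K hp).mem_of_tendsto h1 (by
    filter_upwards [self_mem_nhdsWithin] with t ht using h t ht)

theorem K_eq (hp : IsHyperbolic p e) (ha : InOpen p e a) : hypCone p a = hypCone p e := by
  have hpa := garding1 hp ha
  have hae : InOpen p a e := open_symm hp ha (e_inOpen hp)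
  ext x
  constructor
  · intro hx
    refine K_limit hp (y := a) fun t ht => ?_
    exact InOpen.mem hp ((inOpen_iff hp ha).1 ((mem_K_iff hpa x).1 hx t ht))
  · intro hx
    refine K_limit hpa (y := e) fun t ht => ?_
    exact InOpen.mem hpa ((inOpen_iff hp ha).2 ((mem_K_iff hp x).1 hx t ht))

theorem interior_iff (hp : IsHyperbolic p e) : a ∈ interior (hypCone p e) ↔ InOpen p e a := by
  constructor
  · intro h
    have hc : Continuous (fun t : ℝ => a - t • e) := by fun_prop
    have h1 : (fun t : ℝ => a - t • e) ⁻¹' interior (hypCone p e) ∈ 𝓝 (0 : ℝ) :=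
      (isOpen_interior.preimage hc).mem_nhds (by simpa using h)
    obtain ⟨δ, hδ, h2⟩ := Metric.mem_nhds_iff.1 h1
    have h3 : a - (δ / 2) • e ∈ hypCone p e := by
      apply interior_subset
      apply h2
      rw [Metric.mem_ball, Real.dist_eq, sub_zero, abs_of_pos (by positivity)]
      linarith
    have h4 := K_add_open hp h3 ((e_inOpen hp).smul hp (half_pos hδ))
    rwa [sub_add_cancel] at h4
  · intro h
    exact mem_interior.2 ⟨{a | InOpen p e a}, fun x hx => InOpen.mem hp hx, isOpen_inOpen hp, h⟩

theorem hyp_deriv_self (hp : IsHyperbolic p e) {d : ℕ} (hd : p.IsHomogeneous (d + 1)) :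
    IsHyperbolic (dirD p e) e := by
  have he : 0 < MvPolynomial.eval e (dirD p e) := by
    rw [eval_dirD, dd_euler hd]
    have := hp.2.1
    positivity
  refine ⟨⟨d, homog_dirD hd e⟩, he, ?_⟩
  intro x t ht
  have hsp : (line (dirD p e) (-x) e).Splits := by
    rw [← derivative_line]
    exact Splits.derivative' (hp.splits (-x))
  have hne : line (dirD p e) (-x) e ≠ 0 := by
    intro h0
    have := (line_top (homog_dirD hd e) (-x) e).2
    rw [h0, coeff_zero] at this
    exact absurd this he.ne
  apply Splits.real_roots hsp hne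
  rw [aeval_line, ← ht]
  congr 2
  funext i
  simp only [Pi.neg_apply, Complex.ofReal_neg]
  ring

theorem K_sub_deriv (hp : IsHyperbolic p e) {d : ℕ} (hd : p.IsHomogeneous (d + 1))
    {x : Fin n → ℝ} (hx : x ∈ hypCone p e) : x ∈ hypCone (dirD p e) e := by
  refine mem_K_of_DL (hyp_deriv_self hp hd) (homog_dirD hd e) fun j _ => ?_
  have h1 := K_DL_nonneg hp hx (j + 1)
  rw [pow_succ] at h1
  rw [← DL_apply]
  exact h1

theorem inOpen_deriv_self (hp : IsHyperbolic p e) {d : ℕ} (hd : p.IsHomogeneous (d + 1))
    {y : Fin n → ℝ} (hy : InOpen p e y) : InOpen (dirD p e) e y := by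
  obtain ⟨δ, hδ, h⟩ := hy.sub_e
  have h1 := K_sub_deriv hp hd (h.mem hp)
  intro t ht
  have h2 := (mem_hypCone_iff (homog_dirD hd e) _).1 h1 (t + δ) (by linarith)
  have h3 : y - δ • e + (t + δ) • e = y + t • e := by module
  rwa [h3] at h2

/-- the derivative in an interior direction is hyperbolic -/
theorem hyp_deriv (hp : IsHyperbolic p e) {d : ℕ} (hd : p.IsHomogeneous (d + 1))
    (ha : InOpen p e a) : IsHyperbolic (dirD p a) e ∧ IsHyperbolic (dirD p a) a ∧
      InOpen (dirD p a) a e := by
  have hpa := garding1 hp ha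
  have h1 := hyp_deriv_self hpa hd
  have h2 := inOpen_deriv_self hpa hd (open_symm hp ha (e_inOpen hp))
  exact ⟨garding1 h1 h2, h1, h2⟩

theorem inOpen_deriv (hp : IsHyperbolic p e) {d : ℕ} (hd : p.IsHomogeneous (d + 1))
    (ha : InOpen p e a) {y : Fin n → ℝ} (hy : InOpen p e y) : InOpen (dirD p a) e y := by
  obtain ⟨_, h1, h2⟩ := hyp_deriv hp hd ha
  rw [inOpen_iff h1 h2]
  exact inOpen_deriv_self (garding1 hp ha) hd ((inOpen_iff hp ha).2 hy)

/-! ### double zeros of the derivative -/

theorem eval_zero_of_double (hp : IsHyperbolic p e) {d : ℕ} (hd : p.IsHomogeneous (d + 1))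
    {v : Fin n → ℝ} (h1 : dd p v e = 0) (h2 : dd (dirD p e) v e = 0) :
    MvPolynomial.eval v p = 0 := by
  by_contra h0
  set F := line p v e with hF
  have e0 : F.eval 0 = MvPolynomial.eval v p := by
    rw [hF, eval_line, zero_smul, add_zero]
  have e1 : (derivative F).eval 0 = 0 := by
    rw [hF, eval_derivative_line, zero_smul, add_zero, h1]
  have e2 : (derivative (derivative F)).eval 0 = 0 := by
    rw [hF, eval_derivative2_line, zero_smul, add_zero, h2]
  have h3 := (eval_sq_nonneg (hp.splits v) (by rw [← hF, e0]; exact h0)).2 0 le_rfl (by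
    rw [← hF, e1, e2]; simp)
  rw [← hF] at h3
  have hdeg : 0 < F.degree := by
    rw [← natDegree_pos_iff_degree_pos, hF, (line_leading hd v e hp.2.1.ne').1]
    omega
  have h4 := F.abs_tendsto_atTop hdeg
  obtain ⟨t, ht⟩ := (h4.eventually_gt_atTop |F.eval 0|).exists
  have h5 := h3 t
  simp only [zero_mul, add_zero, one_pow, mul_one] at h5
  linarith

theorem mem_of_double (hp : IsHyperbolic p e) {d : ℕ} (hd : p.IsHomogeneous (d + 1))
    {v : Fin n → ℝ} (hv : v ∈ hypCone (dirD p e) e) (h1 : dd p v e = 0)
    (h2 : dd (dirD p e) v e = 0) : MvPolynomial.eval v p = 0 ∧ v ∈ hypCone p e := by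
  have h0 := eval_zero_of_double hp hd h1 h2
  refine ⟨h0, mem_K_of_DL hp hd fun j _ => ?_⟩
  rcases j with _ | j
  · rw [pow_zero]
    exact h0.ge
  · have h3 := K_DL_nonneg (hyp_deriv_self hp hd) hv j
    rw [← DL_apply] at h3
    rw [pow_succ]
    exact h3

theorem eval_part_zero (p : MvPolynomial (Fin n) ℝ) (z u : Fin n → ℝ) :
    MvPolynomial.eval u (part p z 0) = MvPolynomial.eval z p := by
  have h1 := eval_DL_pow p z u 0
  rw [pow_zero, Nat.factorial_zero, Nat.cast_one, one_mul] at h1
  exact h1.symm

theorem eval_part_one (p : MvPolynomial (Fin n) ℝ) (z u : Fin n → ℝ) :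
    MvPolynomial.eval u (part p z 1) = dd p z u := by
  have h1 := eval_DL_pow p z u 1
  rw [pow_one, Nat.factorial_one, Nat.cast_one, one_mul, DL_apply, eval_dirD] at h1
  exact h1.symm

theorem inOpen_part (hp : IsHyperbolic p e) {z : Fin n → ℝ} (hz : z ∈ hypCone p e) {m : ℕ}
    (hm : ∀ k < m, part p z k = 0) (he : 0 < MvPolynomial.eval e (part p z m))
    (ha : InOpen p e a) : InOpen (part p z m) e a := by
  obtain ⟨δ, hδ, h⟩ := ha.sub_e
  have h1 := K_sub_part hp hz hm he (h.mem hp)
  have hg := part_hyp hp hm he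
  have h2 := K_add_open hg h1 ((e_inOpen hg).smul hg hδ)
  rwa [sub_add_cancel] at h2

theorem OrdinaryCone.dir (h : OrdinaryCone p e) (ha : InOpen p e a) : OrdinaryCone p a := by
  have hK := K_eq h.hyp ha
  refine ⟨garding1 h.hyp ha, ?_, ?_⟩
  · rw [hK]
    exact h.pointed
  · rw [hK]
    intro z hz hz0 hzp v hv hv0 hvz
    obtain ⟨m, hm, he⟩ := exists_mult h.hyp hz
    have hne : part p z m ≠ 0 := by
      intro h0
      rw [h0, map_zero] at he
      exact lt_irrefl _ he
    refine h.ordinary z hz hz0 hzp v ?_ hv0 hvz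
    rw [localization_eq hm hne] at hv ⊢
    rwa [K_eq (part_hyp h.hyp hm he) (inOpen_part h.hyp hz hm he ha)] at hv

/-- the class is closed under the derivative in direction `e` -/
theorem OrdinaryCone.deriv_self (h : OrdinaryCone p e) {d : ℕ} (hd : p.IsHomogeneous (d + 3)) :
    OrdinaryCone (dirD p e) e := by
  have hp := h.hyp
  have hp' := hyp_deriv_self hp hd
  have hd' := homog_dirD hd e
  refine ⟨hp', ?_, ?_⟩
  · intro x hx hx'
    have h1 := lineality_singular hp' (m := d + 2) (by omega) hd' hx hx'
    have h2 := lineality_singular hp' (m := d + 2) (by omega) hd' hx' (by rwa [neg_neg])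
    rw [eval_dirD] at h1 h2
    exact h.pointed x (mem_of_double hp hd hx h1.1 h1.2).2 (mem_of_double hp hd hx' h2.1 h2.2).2
  · intro z hz hz0 hzp
    rw [eval_dirD] at hzp
    by_cases h2 : dd (dirD p e) z e = 0
    · obtain ⟨hz1, hzK⟩ := mem_of_double hp hd hz hzp h2
      obtain ⟨m, hm, he⟩ := exists_mult hp hzK
      obtain ⟨m, rfl⟩ : ∃ m', m = m' + 2 := by
        rcases m with _ | _ | m
        · rw [eval_part_zero, hz1] at he
          exact absurd he (lt_irrefl _)
        · rw [zero_add, eval_part_one, hzp] at he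
          exact absurd he (lt_irrefl _)
        · exact ⟨m, rfl⟩
      have hne : part p z (m + 2) ≠ 0 := by
        intro h0
        rw [h0, map_zero] at he
        exact lt_irrefl _ he
      have hg := part_hyp hp hm he
      have hgd := part_homog p z (m + 2)
      have e1 : part (dirD p e) z (m + 1) = dirD (part p z (m + 2)) e := by
        rw [← DL_apply, part_DL, DL_apply]
      have hne' : part (dirD p e) z (m + 1) ≠ 0 := by
        rw [e1]
        intro h0
        have h3 := (hyp_deriv_self hg hgd).2.1
        rw [h0, map_zero] at h3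
        exact lt_irrefl _ h3
      have hm' : ∀ k < m + 1, part (dirD p e) z k = 0 := by
        rw [← DL_apply]
        exact vanish.DL (p := p) (m := m + 1) hm e
      have hord := h.ordinary z hzK hz0 hz1
      intro v hv hv0 hvz
      rw [localization_eq hm' hne', e1] at hv hv0 ⊢
      have h4 : dd (dirD (part p z (m + 2)) e) v e ≠ 0 := by
        intro h5
        rw [eval_dirD] at hv0
        obtain ⟨h6, h7⟩ := mem_of_double hg hgd hv hv0 h5
        have h8 : IsSmoothPoint (part p z (m + 2)) v := by
          have := hord v (by rw [localization_eq hm hne]; exact h7)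
            (by rw [localization_eq hm hne]; exact h6) hvz
          rwa [localization_eq hm hne] at this
        have h9 := dd_e_pos hg h7 h6 h8
        exact h9.ne' hv0
      exact smooth_of_dd_pos h4
    · have hm' : ∀ k < 1, part (dirD p e) z k = 0 := by
        intro k hk
        obtain rfl : k = 0 := by omega
        apply MvPolynomial.funext
        intro u
        rw [eval_part_zero, eval_dirD, hzp, map_zero]
      have hne' : part (dirD p e) z 1 ≠ 0 := by
        intro h0
        apply h2
        rw [← eval_part_one, h0, map_zero]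
      intro v _ _ _
      rw [localization_eq hm' hne']
      apply smooth_of_dd_pos (v := e)
      rw [← eval_part_dirD, eval_part_zero, eval_dirD]
      exact h2

theorem OrdinaryCone.deriv (h : OrdinaryCone p e) {d : ℕ} (hd : p.IsHomogeneous (d + 3))
    (ha : InOpen p e a) : OrdinaryCone (dirD p a) e := by
  obtain ⟨_, _, h2⟩ := hyp_deriv h.hyp hd ha
  exact ((h.dir ha).deriv_self hd).dir h2

end Vale.Agent.P256
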